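import Crest.Agent.X212.Prf6.Loc

/-!
# Row 212, PERF / ARCX (helper49), part 1: immersed curves, closing up, blending
-/

set_option autoImplicit false
set_option linter.unusedSectionVars false
noncomputable section
open Set Filter Topology Function Complex
open scoped ContDiff Manifold

namespace Crest.Agent.X212.Arx49

open Crest.Agent.X212.Prf6

variable {M N : Type*} [TopologicalSpace M] [ChartedSpace ℂ M] [IsManifold IC ∞ M]
  [TopologicalSpace N] [ChartedSpace ℂ N] [IsManifold IC ∞ N]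

/-- `γ` is a smooth immersion at `t` -/
def Imm (γ : ℝ → M) (t : ℝ) : Prop :=
  ContMDiffAt IR IC ∞ γ t ∧ (show ℂ from mfderiv IR IC γ t (1 : ℝ)) ≠ 0

variable {γ γ' : ℝ → M} {t : ℝ}

theorem Imm.congr (h : Imm γ t) (e : γ' =ᶠ[𝓝 t] γ) : Imm γ' t :=
  ⟨h.1.congr_of_eventuallyEq e, by rw [e.mfderiv_eq]; exact h.2⟩

theorem ld_inj {F : M → N} {x : M} (hF : IsLocalDiffeomorphAt IC IC ∞ F x) :
    Injective (mfderiv IC IC F x) :=
  (LinearMap.equivOfDetNeZero (show ℂ →L[ℝ] ℂ from mfderiv IC IC F x).toLinearMap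
    (dt_ne hF)).injective

theorem Imm.comp {F : M → N} (hF : IsLocalDiffeomorphAt IC IC ∞ F (γ t)) (h : Imm γ t) :
    Imm (fun s => F (γ s)) t := by
  refine ⟨hF.contMDiffAt.comp t h.1, fun h0 => h.2 ?_⟩
  rw [show (fun s => F (γ s)) = F ∘ γ from rfl, mfderiv_comp t
    (hF.contMDiffAt.mdifferentiableAt (by simp)) (h.1.mdifferentiableAt (by simp))] at h0
  exact (injective_iff_map_eq_zero _).1 (ld_inj hF) _ h0

theorem imm_iff {c : ℝ → ℂ} : Imm c t ↔ ContDiffAt ℝ ∞ c t ∧ deriv c t ≠ 0 := by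
  unfold Imm
  rw [contMDiffAt_iff_contDiffAt, mfderiv_eq_fderiv]
  rfl

theorem Imm.aff {a b : ℝ} (ha : a ≠ 0) (h : Imm γ (a * t + b)) :
    Imm (fun s => γ (a * s + b)) t := by
  have h1 : ContMDiffAt IR IR ∞ (fun s : ℝ => a * s + b) t :=
    contMDiffAt_iff_contDiffAt.2 (by fun_prop)
  refine ⟨ContMDiffAt.comp (g := γ) t h.1 h1, fun h0 => h.2 ?_⟩
  have h2 : HasDerivAt (fun s : ℝ => a * s + b) a t := by
    simpa using ((hasDerivAt_id t).const_mul a).add_const b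
  rw [show (fun s => γ (a * s + b)) = γ ∘ fun s : ℝ => a * s + b from rfl,
    mfderiv_comp (g := γ) t (h.1.mdifferentiableAt (by simp)) (h1.mdifferentiableAt (by simp)),
    mfderiv_eq_fderiv, h2.hasFDerivAt.fderiv] at h0
  have h3 : (show ℝ →L[ℝ] ℂ from mfderiv IR IC γ (a * t + b)) ((1 : ℝ) • a) = 0 := h0
  rw [show (1 : ℝ) • a = a • (1 : ℝ) by simp, map_smul] at h3
  exact (smul_eq_zero.1 h3).resolve_left ha

theorem Cv.immAt (h : Cv γ) (t : ℝ) : Imm γ t := ⟨h.sm t, h.imm t⟩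

/-- the image of a curve under a diffeomorphism -/
theorem cv_map {o : Or M} {g : Equiv.Perm M} (hg : g ∈ G o) (h : Cv γ) : Cv fun t => g (γ t) :=
  ⟨fun t => ((Cv.immAt h t).comp (hg _).1).1, fun t => ((Cv.immAt h t).comp (hg _).1).2,
    fun s t => by rw [g.injective.eq_iff, h.inj]⟩

/-- closing up an arc whose ends overlap -/
theorem cv_of {Γ : ℝ → M} {T : ℝ} (hT : 0 < T) (hi : ∀ t ∈ Ico 0 T, Imm Γ t)
    (hj : InjOn Γ (Ico 0 T)) (hp : ∀ᶠ t in 𝓝 (0 : ℝ), Γ (t + T) = Γ t) :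
    Cv (fun s => Γ (T * Int.fract s)) ∧
      ∀ s, ∀ᶠ u in 𝓝 s, Γ (T * Int.fract u) = Γ (T * (u - ⌊s⌋)) := by
  have mem : ∀ s, T * Int.fract s ∈ Ico 0 T := fun s =>
    ⟨mul_nonneg hT.le (Int.fract_nonneg s), mul_lt_of_lt_one_right hT (Int.fract_lt_one s)⟩
  have key : ∀ s, ∀ᶠ u in 𝓝 s, Γ (T * Int.fract u) = Γ (T * (u - ⌊s⌋)) := by
    intro s
    have h1 := Int.floor_le s
    have h2 := Int.lt_floor_add_one s
    have a : ∀ u, (⌊s⌋ : ℝ) ≤ u → u < ⌊s⌋ + 1 → Int.fract u = u - ⌊s⌋ := fun u hu hu' => by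
      rw [Int.fract, Int.floor_eq_iff.2 ⟨hu, hu'⟩]
    rcases h1.eq_or_lt with h | h
    · have h3 : Tendsto (fun u : ℝ => T * (u - ⌊s⌋)) (𝓝 s) (𝓝 0) := by
        have : Continuous fun u : ℝ => T * (u - ⌊s⌋) := by fun_prop
        simpa [h] using this.tendsto s
      filter_upwards [h3.eventually hp, Ioo_mem_nhds (show (⌊s⌋ : ℝ) - 1 < s by linarith) h2]
        with u hu hu'
      rcases le_or_gt (⌊s⌋ : ℝ) u with h4 | h4
      · rw [a u h4 hu'.2]
      · have : ⌊u⌋ = ⌊s⌋ - 1 := Int.floor_eq_iff.2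
          ⟨by push_cast; exact hu'.1.le, by push_cast; linarith⟩
        rw [← hu, Int.fract, this]
        congr 1; push_cast; ring
    · filter_upwards [Ioo_mem_nhds h h2] with u hu
      rw [a u hu.1.le hu.2]
  have im : ∀ s, Imm (fun s => Γ (T * Int.fract s)) s := fun s => by
    have h1 : Imm Γ (T * s + -(T * ⌊s⌋)) := by
      have := hi _ (mem s)
      rwa [Int.fract, mul_sub, sub_eq_add_neg] at this
    refine (h1.aff hT.ne').congr ?_
    filter_upwards [key s] with u hu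
    rw [hu]; congr 1; ring
  refine ⟨⟨fun s => (im s).1, fun s => (im s).2, fun s t => ⟨fun h => ?_, ?_⟩⟩, key⟩
  · obtain ⟨n, hn⟩ := Int.fract_eq_fract.1 (mul_left_cancel₀ hT.ne' (hj (mem s) (mem t) h))
    exact ⟨-n, by push_cast; linarith⟩
  · rintro ⟨n, rfl⟩
    rw [Int.fract_add_intCast]

/-- blending an incoming curve with the vertical axis, in the coordinate `1 / z` -/
theorem blend {w : ℝ → ℂ} {t₀ : ℝ} (hw : ∀ᶠ t in 𝓝 t₀, ContDiffAt ℝ ∞ w t) (h0 : 0 < (w t₀).im)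
    (h1 : 0 < (deriv w t₀).im) : ∃ (c : ℝ → ℂ) (T : ℝ), t₀ < T ∧ (∀ t ≤ t₀, c t = (w t)⁻¹) ∧
      (∀ t ∈ Ico t₀ T, Imm c t) ∧ (∀ᶠ t in 𝓝 T, c t = (t - T : ℝ) * I) ∧
      StrictMonoOn (fun t => (c t)⁻¹.im) (Ico t₀ T) := by
  set f₀ := (w t₀).im with hf₀
  have c1 : ContinuousAt (fun t => (w t).im) t₀ :=
    continuous_im.continuousAt.comp hw.self_of_nhds.continuousAt
  have c2 : ContinuousAt (fun t => (deriv w t).im) t₀ :=
    continuous_im.continuousAt.comp (hw.self_of_nhds.derivWithin (m := 0) (by simp)).continuousAt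
  obtain ⟨η₀, hη₀, hb⟩ := Metric.eventually_nhds_iff.1 (hw.and
    ((c1.eventually (Ioo_mem_nhds h0 (show f₀ < 2 * f₀ by linarith))).and
      (c2.eventually (lt_mem_nhds h1))))
  have m0 : 0 < (4 * f₀)⁻¹ := by positivity
  set η := min (η₀ / 2) (4 * f₀)⁻¹ with hη
  have η0 : 0 < η := lt_min (half_pos hη₀) m0
  have η1 : η ≤ η₀ / 2 := min_le_left _ _
  have η2 : η ≤ (4 * f₀)⁻¹ := min_le_right _ _
  set T := t₀ + η + (4 * f₀)⁻¹ with hT
  set χ : ℝ → ℝ := fun t => Real.smoothTransition ((t - t₀) / η) with hχ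
  have χs : ContDiff ℝ ∞ χ := Real.smoothTransition.contDiff.comp (by fun_prop)
  have χm : Monotone χ := Real.smoothTransition.monotone.comp fun a b h => by
    gcongr
  have χ0 : ∀ t ≤ t₀, χ t = 0 := fun t ht => Real.smoothTransition.zero_of_nonpos
    (div_nonpos_of_nonpos_of_nonneg (by linarith) η0.le)
  have χ1 : ∀ t, t₀ + η ≤ t → χ t = 1 := fun t ht => Real.smoothTransition.one_of_one_le
    ((one_le_div η0).2 (by linarith))
  set v : ℝ → ℂ := fun t => ((1 - χ t : ℝ) : ℂ) * w t + ((χ t * (T - t)⁻¹ : ℝ) : ℂ) * I with hv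
  have v1 : ∀ t, t₀ + η ≤ t → v t = ((T - t)⁻¹ : ℝ) * I := fun t ht => by simp [hv, χ1 t ht]
  have inv1 : ∀ t < T, HasDerivAt (fun u : ℝ => (T - u)⁻¹) (((T - t) ^ 2)⁻¹) t := fun t ht => by
    have := ((hasDerivAt_id' t).const_sub T).fun_inv (sub_pos.2 ht).ne'
    simpa [div_eq_mul_inv] using this
  have inv2 : ∀ t < T, ContDiffAt ℝ ∞ (fun u : ℝ => (T - u)⁻¹) t := fun t ht =>
    ContDiffAt.inv (by fun_prop) (sub_pos.2 ht).ne'
  have oc : ∀ {g : ℝ → ℝ} {t : ℝ}, ContDiffAt ℝ ∞ g t → ContDiffAt ℝ ∞ (fun u => (g u : ℂ)) t :=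
    fun h => ofRealCLM.contDiff.contDiffAt.comp _ h
  have P : ∀ t ∈ Ico t₀ T, ContDiffAt ℝ ∞ v t ∧ 0 < (deriv v t).im ∧ 0 < (v t).im := by
    intro t ht
    have p0 : 0 < (T - t)⁻¹ := inv_pos.2 (sub_pos.2 ht.2)
    have p1 : 0 < ((T - t) ^ 2)⁻¹ := inv_pos.2 (pow_pos (sub_pos.2 ht.2) 2)
    rcases le_or_gt t (t₀ + η) with h | h
    · obtain ⟨a1, a2, a3⟩ := hb (show dist t t₀ < η₀ by
        rw [Real.dist_eq, abs_of_nonneg (by linarith [ht.1])]; linarith)
      have d1 : HasDerivAt χ (deriv χ t) t := (χs.differentiable (by simp) t).hasDerivAt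
      have d2 : HasDerivAt w (deriv w t) t := (a1.differentiableAt (by simp)).hasDerivAt
      have d3 := ((d1.const_sub 1).ofReal_comp.mul d2).add
        ((d1.mul (inv1 t ht.2)).ofReal_comp.mul_const I)
      have b0 : 0 ≤ deriv χ t := χm.deriv_nonneg
      have b1 : 0 ≤ χ t := Real.smoothTransition.nonneg _
      have b2 : χ t ≤ 1 := Real.smoothTransition.le_one _
      have b3 : (w t).im ≤ (T - t)⁻¹ := by
        refine a2.2.le.trans ?_
        rw [le_inv_comm₀ (by linarith) (sub_pos.2 ht.2)]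
        have : (2 * f₀)⁻¹ = 2 * (4 * f₀)⁻¹ := by field_simp; norm_num
        linarith [ht.1]
      refine ⟨((oc (contDiffAt_const.sub χs.contDiffAt)).mul a1).add
        ((oc (χs.contDiffAt.mul (inv2 t ht.2))).mul contDiffAt_const), ?_, ?_⟩
      · rw [show deriv v t = _ from d3.deriv]
        simp only [add_im, mul_im, ofReal_re, ofReal_im, I_im, I_re, mul_zero, zero_mul, add_zero,
          mul_one]
        rcases b1.eq_or_lt with e | e
        · rw [← e]; nlinarith [mul_nonneg b0 (sub_nonneg.2 b3)]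
        · nlinarith [mul_nonneg b0 (sub_nonneg.2 b3), mul_pos e p1,
            mul_nonneg (sub_nonneg.2 b2) a3.le]
      · simp only [hv, add_im, mul_im, ofReal_re, ofReal_im, I_im, I_re, mul_zero, zero_mul,
          add_zero, mul_one]
        nlinarith [mul_nonneg b1 (sub_nonneg.2 b3), a2.1]
    · have e : v =ᶠ[𝓝 t] fun u => (((T - u)⁻¹ : ℝ) : ℂ) * I := by
        filter_upwards [Ioi_mem_nhds h] with u hu using v1 u (le_of_lt hu)
      refine ⟨((oc (inv2 t ht.2)).mul contDiffAt_const).congr_of_eventuallyEq e, ?_, ?_⟩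
      · rw [e.deriv_eq, ((inv1 t ht.2).ofReal_comp.mul_const I).deriv]
        simpa only [mul_im, ofReal_re, ofReal_im, I_im, I_re, mul_zero, add_zero, mul_one] using p1
      · rw [v1 t h.le]
        simpa only [mul_im, ofReal_re, ofReal_im, I_im, I_re, mul_zero, add_zero, mul_one] using p0
  refine ⟨fun t => (v t)⁻¹, T, by linarith, fun t ht => by simp [hv, χ0 t ht], fun t ht => ?_,
    ?_, ?_⟩
  · obtain ⟨a1, a2, a3⟩ := P t ht
    have n0 : v t ≠ 0 := fun e => by rw [e] at a3; exact lt_irrefl _ a3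
    have n1 : deriv v t ≠ 0 := fun e => by rw [e] at a2; exact lt_irrefl _ a2
    refine imm_iff.2 ⟨a1.inv n0, ?_⟩
    rw [show deriv (fun t => (v t)⁻¹) t = _ from
      ((a1.differentiableAt (by simp)).hasDerivAt.inv n0).deriv]
    exact div_ne_zero (neg_ne_zero.2 n1) (pow_ne_zero 2 n0)
  · filter_upwards [Ioi_mem_nhds (show t₀ + η < T by linarith)] with t ht
    rw [v1 t (le_of_lt ht), mul_inv, inv_I, ← ofReal_inv, inv_inv]
    push_cast; ring
  · simp only [inv_inv]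
    refine strictMonoOn_of_deriv_pos (convex_Ico _ _) (fun t ht =>
      (continuous_im.continuousAt.comp (P t ht).1.continuousAt).continuousWithinAt) fun t ht => ?_
    obtain ⟨a1, a2, -⟩ := P t (interior_subset ht)
    rwa [(der_im (a1.differentiableAt (by simp)).hasDerivAt).deriv]

end Crest.Agent.X212.Arx49
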