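import Crest.Agent.X212.Arx49.Arc
import Crest.Agent.X212.Prf6.Lf

/-!
# Row 212, PERF / DUAL2 (helper49): a common dual of two disjoint non-separating curves
-/

set_option autoImplicit false
set_option linter.unusedSectionVars false
noncomputable section
open Set Filter Topology Function Complex Metric
open scoped ContDiff Manifold

namespace Crest.Agent.X212.Arx49

open Crest.Agent.X212.Prf6

/-- every component of `O \ K` meets a neighbourhood `N` of `K` -/
theorem reach {M : Type*} [TopologicalSpace M] [LocallyConnectedSpace M] {O K N : Set M}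
    (hO : IsPreconnected O) (ho : IsOpen (O \ K)) (hN : IsOpen N) (hK : O ∩ K ⊆ N)
    (hne : (O ∩ N).Nonempty) {y : M} (hy : y ∈ O \ K) :
    ∃ z ∈ N, z ∈ connectedComponentIn (O \ K) y := by
  by_contra hn
  have h1 : IsOpen ((O \ K) \ connectedComponentIn (O \ K) y) := isOpen_iff_mem_nhds.2 fun x hx =>
    mem_of_superset (ho.connectedComponentIn.mem_nhds (mem_connectedComponentIn hx.1))
      fun z hz => ⟨connectedComponentIn_subset _ _ hz, fun h => hx.2 (by
        rw [connectedComponentIn_eq h, ← connectedComponentIn_eq hz]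
        exact mem_connectedComponentIn hx.1)⟩
  obtain ⟨z, -, h2, h3⟩ := hO _ _ (ho.connectedComponentIn (x := y)) (hN.union h1)
    (fun x hx => by
      by_cases h : x ∈ connectedComponentIn (O \ K) y
      · exact Or.inl h
      · by_cases h' : x ∈ K
        · exact Or.inr (Or.inl (hK ⟨hx, h'⟩))
        · exact Or.inr (Or.inr ⟨⟨hx, h'⟩, h⟩))
    ⟨y, hy.1, mem_connectedComponentIn hy⟩ (hne.mono (inter_subset_inter_right _ subset_union_left))
  exact h3.elim (fun h => hn ⟨z, h, h2⟩) fun h => h.2 h2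

variable {M : Type*} [TopologicalSpace M] [ChartedSpace ℂ M] [IsManifold IC ∞ M] [T2Space M]
  {o : Or M} {A A' : ℂ → M}

theorem tv_congr {γ γ' : ℝ → M} {t : ℝ} (h : Tv A γ t) (e : γ' =ᶠ[𝓝 t] γ) : Tv A γ' t := by
  obtain ⟨g, h1, h2, h3⟩ := h
  exact ⟨g, h1, (h2.and e).mono fun _ h => h.2.trans h.1, h3⟩

/-- at a lowest point of `core A'` in the chart `A` non-horizontal curves are transverse -/
theorem tv_min (hA : ∀ z, Pm oC o A z) (hA' : ∀ z, Pm oC o A' z) {c : ℝ → ℂ} {t : ℝ}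
    (hc : ContDiffAt ℝ ∞ c t) (hd : (deriv c t).im ≠ 0) (hm : A (c t) ∈ core A')
    (hl : ∀ᶠ z in 𝓝 (c t), A z ∈ core A' → (c t).im ≤ z.im) : Tv A' (fun s => A (c s)) t := by
  obtain ⟨u, hu⟩ := hm
  have hu' : A' u = A (c t) := hu
  have a := (hA (c t)).1
  have a' := (hA' u).1
  have e' : IsLocalDiffeomorphAt IC IC ∞ a'.localInverse (A (c t)) :=
    hu' ▸ a'.localInverse_isLocalDiffeomorphAt
  have hh := Cyl58.ld_comp e' a
  set h := a'.localInverse ∘ A with hh'
  have h0 : h (c t) = u := by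
    rw [hh', comp_apply, ← hu', a'.localInverse_left_inv a'.localInverse_mem_target]
  have h1 : ContDiffAt ℝ ∞ h (c t) := contMDiffAt_iff_contDiffAt.1 hh.contMDiffAt
  have h2 := (h1.differentiableAt (by simp)).hasFDerivAt
  have h3 : Injective (fderiv ℝ h (c t)) := by
    have := ld_inj hh
    rwa [mfderiv_eq_fderiv] at this
  have h4 := h2.comp_hasDerivAt t (hc.differentiableAt (by simp)).hasDerivAt
  refine ⟨h ∘ c, h1.comp t hc, ?_, by simp [h0], fun h5 => hd ?_⟩
  · have := a'.localInverse_eventuallyEq_right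
    rw [hu'] at this
    exact ((a.contMDiffAt.continuousAt.comp hc.continuousAt).eventually this).mono
      fun s hs => hs.symm
  · set k : ℝ → ℂ := fun τ => a.localInverse (A' τ) with hk
    have k0 : k u = c t := by
      simp only [hk, hu', a.localInverse_left_inv a.localInverse_mem_target]
    have oR : ContMDiff IR IC ∞ (fun τ : ℝ => (τ : ℂ)) := ofRealCLM.contDiff.contMDiff
    have s1 : ContMDiffAt IR IC ∞ (fun τ : ℝ => A' τ) u := a'.contMDiffAt.comp u (oR u)
    have k1 : ContDiffAt ℝ ∞ k u := contMDiffAt_iff_contDiffAt.1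
      (ContMDiffAt.comp (g := a.localInverse) u (by
        simp only [hu']; exact a.localInverse_contMDiffAt) s1)
    have k2 := (k1.differentiableAt (by simp)).hasDerivAt
    have k3 : ∀ᶠ τ : ℝ in 𝓝 u, A (k τ) = A' τ := s1.continuousAt.eventually (by
      simp only [hu']; exact a.localInverse_eventuallyEq_right)
    have k4 : (deriv k u).im = 0 := by
      refine IsLocalMin.hasDerivAt_eq_zero ?_ (der_im k2)
      filter_upwards [k3, k1.continuousAt.eventually (k0 ▸ hl)] with τ b1 b2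
      exact b2 (b1 ▸ ⟨τ, rfl⟩)
    have k5 : fderiv ℝ h (c t) (deriv k u) = 1 := by
      have b1 := h2.comp_hasDerivAt_of_eq u k2 k0.symm
      have b2 : HasDerivAt (h ∘ k) 1 u := by
        refine ofRealCLM.hasDerivAt.congr_of_eventuallyEq ?_
        filter_upwards [k3, (oR u).continuousAt.eventually a'.localInverse_eventuallyEq_left]
          with τ b1 b2
        simp only [hh', comp_apply, b1]
        exact b2
      exact b1.unique b2
    rw [h4.deriv] at h5
    have k6 : deriv c t = (fderiv ℝ h (c t) (deriv c t)).re • deriv k u := h3 (by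
      rw [map_smul, k5]
      exact Complex.ext (by simp) (by simpa using h5))
    rw [k6]; simp [k4]

/-- the case where `core A'` enters the upper collar of `A` -/
theorem dual0 {U : Set M} (hU : IsOpen U) (hA : An o A) (hA' : An o A') (h1 : core A ⊆ U)
    (h1' : core A' ⊆ U) (hd : Disjoint (core A) (core A')) (hc : IsPreconnected (U \ core A))
    (hc' : IsPreconnected (U \ core A')) {z₁ : ℂ} (hz : A z₁ ∈ core A') (hz0 : 0 ≤ z₁.im)
    (hzU : ∀ w : ℂ, 0 ≤ w.im → w.im ≤ z₁.im → A w ∈ U) :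
    ∃ γ, Cv γ ∧ range γ ⊆ U ∧ ∃ t t' : ℝ, (∀ s, γ s ∈ core A → ∃ n : ℤ, s = t + n) ∧ Tv A γ t ∧
      (∀ s, γ s ∈ core A' → ∃ n : ℤ, s = t' + n) ∧ Tv A' γ t' := by
  have := ChartedSpace.locallyConnectedSpace ℂ M
  have cA := cont_of_pm hA.1
  have oA := isOpenMap_of_pm hA.1
  have cl := hA.isCompact_core.isClosed
  have cl' := hA'.isCompact_core.isClosed
  obtain ⟨z₀, ⟨b1, b2⟩, hmin⟩ := ((isCompact_bx 0 z₁.im).inter_right (cl'.preimage cA)).exists_isMinOn
    (by
      obtain ⟨w, hw, e⟩ := hA.mem_bx.2 (show z₁.im ∈ Icc 0 z₁.im from ⟨hz0, le_rfl⟩)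
      exact ⟨w, hw, show A w ∈ core A' from e ▸ hz⟩) continuous_im.continuousOn
  set s₀ := z₀.im with hs₀
  set a := z₀.re with ha
  have s0 : 0 < s₀ := lt_of_le_of_ne b1.2.1 fun e =>
    disjoint_left.1 hd (hA.mem_core.2 e.symm) b2
  have free : ∀ w : ℂ, 0 ≤ w.im → w.im < s₀ → A w ∉ core A' := fun w a1 a2 a3 => by
    obtain ⟨w', hw, e⟩ := hA.mem_bx.2 (show w.im ∈ Icc 0 z₁.im from ⟨a1, a2.le.trans b1.2.2⟩)
    have : s₀ ≤ w'.im := hmin ⟨hw, show A w' ∈ core A' from e ▸ a3⟩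
    linarith [hA.im_eq e]
  have vim : ∀ t : ℝ, ((a : ℂ) + t * I).im = t := fun t => by simp
  have ez : (a : ℂ) + s₀ * I = z₀ := re_add_im z₀
  have tv : ∀ (T t : ℝ), T ≠ 0 → T * t = s₀ → Tv A' (fun s => A (a + (T * s : ℝ) * I)) t :=
    fun T t hT e => by
      obtain ⟨i1, -⟩ := imm_iff.1 (((imm_vert a (T * t + 0)).aff hT))
      simp only [add_zero] at i1
      have i2 : HasDerivAt (fun s : ℝ => (a : ℂ) + (T * s : ℝ) * I) ((T * 1 : ℝ) * I) t :=
        ((((hasDerivAt_id' t).const_mul T).ofReal_comp).mul_const I).const_add _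
      refine tv_min hA.1 hA'.1 i1 (by rw [i2.deriv]; simpa using hT) (by rw [e, ez]; exact b2) ?_
      rw [e, ez]
      filter_upwards [continuous_im.continuousAt.eventually (lt_mem_nhds s0)] with z a1 a2
      exact not_lt.1 fun a3 => free z a1.le a3 a2
  obtain ⟨δ, hδ, tube⟩ := hA.tube (hU.sdiff cl') fun x hx => ⟨h1 hx, disjoint_left.1 hd hx⟩
  set σ : Set M := (fun t : ℝ => A (a + t * I)) '' Icc 0 s₀ with hσ
  have cσ : IsClosed σ := (isCompact_Icc.image (by fun_prop)).isClosed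
  have σim : ∀ w, A w ∈ σ → w.im ∈ Icc 0 s₀ := fun w ⟨t, ht, e⟩ => by
    rw [← hA.im_eq e, vim]; exact ht
  set V : Set M := (U \ core A') \ (core A ∪ σ) with hV
  have oV : IsOpen V := (hU.sdiff cl').sdiff (cl.union cσ)
  have V2 : ((U \ core A) \ core A') \ σ = V := by
    ext x; simp only [hV, Set.mem_sdiff, mem_union]; tauto
  set L : Set M := A '' {z : ℂ | -δ < z.im ∧ z.im < 0} with hL
  set S : Set M := A '' {z : ℂ | 0 < z.im ∧ z.im < s₀} with hS
  set Q : Set M := A '' (Ioo a (a + 1) ×ℂ Ioo 0 s₀) with hQ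
  have LV : L ⊆ V := by
    rintro _ ⟨z, hz, rfl⟩
    refine ⟨tube z (abs_lt.2 ⟨hz.1, by linarith [hz.2]⟩), ?_⟩
    rintro (h | h)
    · exact hz.2.ne (hA.mem_core.1 h)
    · exact hz.2.not_ge (σim z h).1
  have SV : S ⊆ (U \ core A) \ core A' := by
    rintro _ ⟨z, hz, rfl⟩
    exact ⟨⟨hzU z hz.1.le (hz.2.le.trans b1.2.2), fun h => hz.1.ne' (hA.mem_core.1 h)⟩,
      free z hz.1.le hz.2⟩
  have QS : Q ⊆ S := image_mono fun z hz => hz.2
  have QV : Q ⊆ V := fun x hx => V2.le ⟨SV (QS hx), by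
    obtain ⟨z, hz, rfl⟩ := hx
    rintro ⟨t, -, e⟩
    obtain ⟨n, hn⟩ := (hA.2 _ _).1 e
    have h2 : z.re = a + n := by rw [hn]; simp
    have h3 : (0 : ℤ) < n := by exact_mod_cast (show (0 : ℝ) < n by linarith [hz.1.1])
    have h4 : n < (1 : ℤ) := by exact_mod_cast (show (n : ℝ) < 1 by linarith [hz.1.2])
    omega⟩
  have SQ : ∀ x ∈ S, x ∉ σ → x ∈ Q := by
    rintro _ ⟨z, hz, rfl⟩ h
    have h2 := Int.floor_le (z.re - a)
    have h3 := Int.lt_floor_add_one (z.re - a)
    have e := hA.per z (-⌊z.re - a⌋)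
    refine ⟨_, ⟨⟨lt_of_le_of_ne (by simp; linarith) fun h4 => h ⟨z.im, ⟨hz.1.le, hz.2.le⟩, ?_⟩,
      by simp; linarith⟩, by simpa using hz⟩, e⟩
    rw [← e]
    exact congrArg A (Complex.ext (by simpa using h4) (by simp))
  have cL : IsPreconnected L := (strip_conn _ _).image _ cA.continuousOn
  have cS : IsPreconnected S := (strip_conn _ _).image _ cA.continuousOn
  have cQ : IsPreconnected Q :=
    (((convex_halfSpace_re_gt a).inter (convex_halfSpace_re_lt (a + 1))).inter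
      ((convex_halfSpace_im_gt 0).inter (convex_halfSpace_im_lt s₀))).isPreconnected.image _
      cA.continuousOn
  have oS : ∀ u v : ℝ, IsOpen (A '' {z : ℂ | u < z.im ∧ z.im < v}) := fun u v =>
    oA _ ((isOpen_lt continuous_const continuous_im).inter
      (isOpen_lt continuous_im continuous_const))
  have y0 : A ((-δ / 2 : ℝ) * I) ∈ L := ⟨_, by constructor <;> simp <;> linarith, rfl⟩
  set W := connectedComponentIn V (A ((-δ / 2 : ℝ) * I)) with hW
  have LW : L ⊆ W := cL.subset_connectedComponentIn y0 LV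
  have WV : W ⊆ V := connectedComponentIn_subset _ _
  obtain ⟨ε, hε, d1, d2⟩ := (tv 1 s₀ one_ne_zero (one_mul _)).sides one_pos
  obtain ⟨s₁, s1, FV⟩ : ∃ s₁ > s₀, ∀ t ∈ Ioc s₀ s₁, A (a + t * I) ∈ V := by
    have h2 : ∀ᶠ t : ℝ in 𝓝 s₀, A (a + t * I) ∈ U :=
      (show Continuous fun t : ℝ => A (a + t * I) by fun_prop).continuousAt.eventually
        (hU.mem_nhds (by simp only [ez]; exact h1' b2))
    obtain ⟨s₁, a1, a2⟩ := mem_nhdsGT_iff_exists_Ioc_subset.1 (d1.and (nhdsWithin_le_nhds h2))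
    refine ⟨s₁, a1, fun t ht => ?_⟩
    obtain ⟨⟨z, a3, a4, -⟩, a5⟩ := a2 ht
    rw [one_mul] at a3
    refine ⟨⟨a5, fun h => ?_⟩, ?_⟩
    · rw [a3, hA'.mem_core] at h
      rw [h, mul_zero] at a4
      exact lt_irrefl _ a4
    · rintro (h | h)
      · rw [hA.mem_core, vim] at h
        linarith [ht.1]
      · have := (σim _ h).2
        rw [vim] at this
        linarith [ht.1]
  have FW : ∀ t ∈ Ioc s₀ s₁, A (a + t * I) ∈ W := fun t ht => by
    have join : ∀ z ∈ W, z ∈ connectedComponentIn V (A (a + t * I)) → A (a + t * I) ∈ W :=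
      fun z a1 a2 => by
        rw [hW, connectedComponentIn_eq a1, ← connectedComponentIn_eq a2]
        exact mem_connectedComponentIn (FV t ht)
    obtain ⟨z, ⟨w, hw, rfl⟩, hz⟩ := reach hc' oV (oS (-δ) s₀) (by
      rintro x ⟨hx, ⟨u, rfl⟩ | ⟨u, hu, rfl⟩⟩
      · exact ⟨u, by constructor <;> simp <;> linarith, rfl⟩
      · refine ⟨_, ⟨by rw [vim]; linarith [hu.1], ?_⟩, rfl⟩
        rw [vim]
        refine lt_of_le_of_ne hu.2 fun e => hx.2 ?_
        simp only [e, ez]; exact b2)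
      ⟨_, (LV y0).1, _, by constructor <;> simp <;> linarith, rfl⟩ (FV t ht)
    have zV := connectedComponentIn_subset _ _ hz
    rcases lt_trichotomy w.im 0 with h | h | h
    · exact join _ (LW ⟨w, ⟨hw.1, h⟩, rfl⟩) hz
    · exact absurd (Or.inl (hA.mem_core.2 h)) zV.2
    have zS : A w ∈ S := ⟨w, ⟨h, hw.2⟩, rfl⟩
    have FC : ∀ u ∈ Ioc s₀ s₁, A (a + u * I) ∈ connectedComponentIn V (A (a + t * I)) :=
      fun u hu => (isPreconnected_Ioc.image (fun t : ℝ => A (a + t * I))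
        (by fun_prop)).subset_connectedComponentIn ⟨t, ht, rfl⟩
          (by rintro _ ⟨v, hv, rfl⟩; exact FV v hv) ⟨u, hu, rfl⟩
    have side : ∀ η > (0 : ℝ), ∀ ε' : ℝ, ε' = 1 ∨ ε' = -1 → ∃ p : ℂ, 0 < ε' * p.im ∧ |p.im| < η ∧
        A' p ∈ connectedComponentIn V (A (a + t * I)) ∪ S := fun η hη ε' hε' => by
      obtain ⟨ε, hε, d1, d2⟩ := (tv 1 s₀ one_ne_zero (one_mul _)).sides hη
      obtain ⟨u, ⟨p, a1, a2, a3⟩, hu⟩ := (d1.and (Ioc_mem_nhdsGT s1)).exists
      obtain ⟨v, ⟨q, a4, a5, a6⟩, hv⟩ := (d2.and (Ioo_mem_nhdsLT s0)).exists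
      rw [one_mul] at a1 a4
      by_cases e : ε' = ε
      · exact ⟨p, e ▸ a2, a3, Or.inl (a1 ▸ FC u hu)⟩
      · refine ⟨q, ?_, a6, Or.inr (a4 ▸ ⟨_, by rw [mem_ofPred, vim]; exact hv, rfl⟩)⟩
        rcases hε with rfl | rfl <;> rcases hε' with rfl | rfl <;> first | exact absurd rfl e | linarith
    have cV : IsPreconnected ((U \ core A) \ core A') := hA'.conn_diff (hU.sdiff cl) hc
      (fun x hx => ⟨h1' hx, disjoint_right.1 hd hx⟩)
      (isPreconnected_connectedComponentIn.union _ hz zS cS)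
      (union_subset ((connectedComponentIn_subset _ _).trans (V2.ge.trans sdiff_subset)) SV)
      (fun η hη => by
        obtain ⟨p, a1, a2, a3⟩ := side η hη 1 (Or.inl rfl)
        exact ⟨p, ⟨by linarith, (abs_lt.1 a2).2⟩, a3⟩)
      (fun η hη => by
        obtain ⟨p, a1, a2, a3⟩ := side η hη (-1) (Or.inr rfl)
        exact ⟨p, ⟨(abs_lt.1 a2).1, by linarith⟩, a3⟩)
    obtain ⟨z', a1, a2⟩ := reach cV (K := σ) (V2 ▸ oV) (oS 0 s₀) (by
      rintro x ⟨hx, u, hu, rfl⟩
      refine ⟨_, ⟨?_, ?_⟩, rfl⟩ <;> rw [vim]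
      · exact lt_of_le_of_ne hu.1 fun e => hx.1.2 (hA.mem_core.2 (by rw [vim, e]))
      · refine lt_of_le_of_ne hu.2 fun e => hx.2 ?_
        simp only [e, ez]; exact b2) ⟨_, SV zS, zS⟩ (V2.ge (LV y0))
    rw [V2] at a2
    have QW : Q ⊆ W := by
      rw [hW, connectedComponentIn_eq a2]
      exact cQ.subset_connectedComponentIn (SQ _ a1 fun h => (WV a2).2 (Or.inr h)) QV
    exact join _ (QW (SQ _ zS fun h => zV.2 (Or.inr h))) hz
  obtain ⟨γ, T, k1, k2, k3, k4⟩ := arc o (B := fun z => A (a + z)) (Ω := {z | |z.re| < 1 / 2})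
    (isOpen_lt (by fun_prop) continuous_const)
    (fun z _ => by simpa using (hA.affine a (Or.inl rfl)).1 z)
    (fun z hz w hw e => by
      obtain ⟨n, hn⟩ := (hA.2 _ _).1 e
      have h2 : w.re = z.re + n := by simpa [add_assoc] using congrArg re hn
      have h3 := abs_lt.1 (show |z.re| < 1 / 2 from hz)
      have h4 := abs_lt.1 (show |w.re| < 1 / 2 from hw)
      have h5 : (-1 : ℤ) < n := by exact_mod_cast (show (-1 : ℝ) < n by linarith)
      have h6 : n < (1 : ℤ) := by exact_mod_cast (show (n : ℝ) < 1 by linarith)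
      obtain rfl : n = 0 := by omega
      simpa using hn.symm)
    oV.connectedComponentIn isPreconnected_connectedComponentIn s0.le s1
    (lt_min (half_pos hδ) (show (0 : ℝ) < 1 / 4 by norm_num)) (fun t _ => by simp)
    (fun z hz => by
      have := (abs_re_le_norm z).trans ((mem_closedBall_zero_iff.1 hz).trans (min_le_right _ _))
      exact this.trans_lt (by norm_num))
    (fun t ht h => (WV h).2 (Or.inr ⟨t, ht, rfl⟩)) FW
    (fun z hz h => LW ⟨a + z, ⟨by
      have := abs_le.1 ((abs_im_le_norm z).trans (hz.trans (min_le_left _ _)))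
      simp; linarith, by simpa using h⟩, rfl⟩)
  have T0 : 0 < T := s0.trans k2
  have key : ∀ t, γ t ∈ V ∨ (T * Int.fract t ∈ Icc 0 s₀ ∧
      γ t = A (a + (T * Int.fract t : ℝ) * I)) := fun t => by
    have e : γ t = γ (Int.fract t) := ((k1.inj _ _).2 ⟨⌊t⌋, by simp⟩).symm
    rcases lt_or_ge s₀ (T * Int.fract t) with h | h
    · exact Or.inl (e ▸ WV (k3 _ ⟨Int.fract_nonneg t, Int.fract_lt_one t⟩ h))
    · exact Or.inr ⟨⟨mul_nonneg T0.le (Int.fract_nonneg t), h⟩,
        e.trans (k4 _ (Int.fract_nonneg t) h).self_of_nhds⟩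
  have eT : T * (s₀ / T) = s₀ := by field_simp
  refine ⟨γ, k1, ?_, 0, s₀ / T, fun s h => ?_, ?_, fun s h => ?_,
    tv_congr (tv T _ T0.ne' eT) (k4 _ (by positivity) eT.le)⟩
  · rintro _ ⟨t, rfl⟩
    rcases key t with h | ⟨h, e⟩
    · exact h.1.1
    · rw [e]; exact hzU _ (by rw [vim]; exact h.1) (by rw [vim]; exact h.2.trans b1.2.2)
  · rcases key s with h' | ⟨-, e⟩
    · exact absurd (Or.inl h) h'.2
    · rw [e, hA.mem_core, vim] at h
      have := (mul_eq_zero.1 h).resolve_left T0.ne'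
      exact ⟨⌊s⌋, by rw [Int.fract] at this; linarith⟩
  · have i2 : HasDerivAt (fun s : ℝ => (a : ℂ) + (T * s : ℝ) * I) ((T * 1 : ℝ) * I) 0 :=
      ((((hasDerivAt_id' 0).const_mul T).ofReal_comp).mul_const I).const_add _
    obtain ⟨i1, -⟩ := imm_iff.1 (((imm_vert a (T * 0 + 0)).aff T0.ne'))
    simp only [add_zero] at i1
    exact ⟨_, i1, k4 0 le_rfl (by simpa using s0.le), by simp,
      by rw [i2.deriv]; simpa using T0.ne'⟩
  · rcases key s with h' | ⟨h', e⟩
    · exact absurd h h'.1.2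
    · rw [e] at h
      have h2 : T * Int.fract s = s₀ := le_antisymm h'.2 (not_lt.1 fun h3 =>
        free _ (by rw [vim]; exact h'.1) (by rw [vim]; exact h3) h)
      refine ⟨⌊s⌋, ?_⟩
      rw [← h2, mul_div_cancel_left₀ _ T0.ne', Int.fract_add_floor]

/-- **DUAL 2** -/
theorem dual2 : Dual2 := by
  intro X U A A' hU hA hA' h1 h1' hd hc hc'
  obtain ⟨δ, hδ, tube⟩ := hA.tube hU h1
  have im1 : (((δ / 2 : ℝ) : ℂ) * I).im = δ / 2 := by simp
  have sub : core A' ⊆ U \ core A := fun x hx => ⟨h1' hx, disjoint_right.1 hd hx⟩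
  obtain ⟨φ, hφ, hn, hy⟩ := hom_gen X.o (hU.sdiff hA.isCompact_core.isClosed) hc
    (sub (mem_core (A := A') (z := 0) rfl)) (y := A ((δ / 2 : ℝ) * I))
    ⟨tube _ (by rw [im1, abs_of_pos (half_pos hδ)]; linarith),
      fun h => (half_pos hδ).ne' (im1 ▸ hA.mem_core.1 h)⟩
  have hg := hφ.mem 1
  have hn1 := hn.near 1
  generalize φ 1 = g at hg hn1 hy
  have gW : ∀ x, g x ∈ U \ core A ↔ x ∈ U \ core A := mem_iff_of_fix fun x hx => hn1.fix hx
  have gU : ∀ x, g x ∈ U ↔ x ∈ U := mem_iff_of_fix fun x hx => hn1.fix fun h => hx h.1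
  have gA : ∀ x ∈ core A, g x = x := fun x hx => hn1.fix fun h => h.2 hx
  have sub' : core (g ∘ A') ⊆ U \ core A := by
    rw [core_comp]; rintro _ ⟨x, hx, rfl⟩; exact (gW x).2 (sub hx)
  obtain ⟨γ, k1, k2, t, t', k3, k4, k5, k6⟩ := dual0 hU hA (hA'.comp hg) h1
    (sub'.trans sdiff_subset) (disjoint_right.2 fun x hx => (sub' hx).2) hc (by
      have := hc'.image g (G_cont hg).continuousOn
      rw [image_sdiff g.injective, ← core_comp] at this
      convert this using 2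
      ext x
      obtain ⟨y, rfl⟩ := g.surjective x
      rw [g.injective.mem_set_image, gU]) (z₁ := (δ / 2 : ℝ) * I)
    (hy ▸ mem_core (A := g ∘ A') (z := 0) rfl) (by rw [im1]; linarith)
    fun w a b => tube w (by rw [abs_of_nonneg a]; linarith)
  refine ⟨fun s => g⁻¹ (γ s), cv_map (inv_mem hg) k1, ?_, t, t', fun s h => k3 s ?_, ?_,
    fun s h => k5 s ?_, ?_⟩
  · rintro _ ⟨s, rfl⟩
    exact (gU _).1 (by simpa using k2 ⟨s, rfl⟩)
  · have := gA _ h
    rw [show γ s = g⁻¹ (γ s) by simpa using this]; exact h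
  · refine tv_congr k4 ((k1.sm.continuous.tendsto t).eventually (hn1.inv.at fun h => h.2 ?_))
    obtain ⟨c, -, c2, c3, -⟩ := k4
    rw [c2.self_of_nhds]; exact mem_core c3
  · rw [core_comp]
    exact ⟨_, h, by simp⟩
  · obtain ⟨c, c1, c2, c3⟩ := k6
    exact ⟨c, c1, c2.mono fun s hs => by simp [hs], c3⟩

end Crest.Agent.X212.Arx49
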